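import Vale.Agent.P039.Bz.Stmt
import Vale.Agent.P039.H84.CycRank
import Vale.Agent.P039.H484.Hall2

/-!
# P039-B, row S3: `pairStmt : Bz.PairStmt` (helper259)

In a 3-edge-connected spherical web all of whose 3-edge cuts are trivial, two disjoint matchings
exist for every root.
-/

set_option linter.all false

namespace Vale.Agent.P039.H259

open Finset Vale.Agent.P039.Bn Vale.Agent.P039.Bz

/-! ### three Booleans -/

/-- exactly one -/
def n1 (a : Fin 3 → Bool) : ℕ :=
  match a 0, a 1, a 2 with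
  | true, false, false => 1
  | false, true, false => 1
  | false, false, true => 1
  | _, _, _ => 0

/-- at least two -/
def n2 (a : Fin 3 → Bool) : ℕ :=
  match a 0, a 1, a 2 with
  | true, true, _ => 1
  | true, _, true => 1
  | _, true, true => 1
  | _, _, _ => 0

/-- at least one -/
def n0 (a : Fin 3 → Bool) : ℕ := if a 0 = true ∨ a 1 = true ∨ a 2 = true then 1 else 0

theorem n0_eq (a : Fin 3 → Bool) : n0 a = n1 a + n2 a := by
  unfold n0 n1 n2
  rcases h0 : a 0 <;> rcases h1 : a 1 <;> rcases h2 : a 2 <;> simp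

theorem n0_one {a : Fin 3 → Bool} (h : ∃ j, a j = true) : n0 a = 1 := by
  obtain ⟨j, hj⟩ := h
  unfold n0
  rw [if_pos]
  fin_cases j
  · exact Or.inl hj
  · exact Or.inr (Or.inl hj)
  · exact Or.inr (Or.inr hj)

theorem n0_zero {a : Fin 3 → Bool} (h : ¬ ∃ j, a j = true) : n0 a = 0 := by
  unfold n0
  rw [if_neg]
  rintro (h1 | h1 | h1)
  · exact h ⟨_, h1⟩
  · exact h ⟨_, h1⟩
  · exact h ⟨_, h1⟩

theorem edge_sum (a : Fin 3 → Bool) :
    ∑ i : Fin 3, (if a (i + 1) = true ∨ a (i + 2) = true then 1 else 0) = 2 * n1 a + 3 * n2 a := by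
  have a1 : (1 : Fin 3) + 1 = 2 := rfl
  have a2 : (2 : Fin 3) + 1 = 0 := rfl
  have a3 : (1 : Fin 3) + 2 = 0 := rfl
  have a4 : (2 : Fin 3) + 2 = 1 := rfl
  unfold n1 n2
  rw [Fin.sum_univ_three, a1, a2, a3, a4, zero_add, zero_add]
  rcases h0 : a 0 <;> rcases h1 : a 1 <;> rcases h2 : a 2 <;> simp

theorem off_sum (a : Fin 3 → Bool) :
    ∑ i : Fin 3, n0 a * (if a (i + 1) = true ∨ a (i + 2) = true then 0 else 1) = n1 a := by
  have a1 : (1 : Fin 3) + 1 = 2 := rfl
  have a2 : (2 : Fin 3) + 1 = 0 := rfl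
  have a3 : (1 : Fin 3) + 2 = 0 := rfl
  have a4 : (2 : Fin 3) + 2 = 1 := rfl
  rw [n0_eq]
  unfold n1 n2
  rw [Fin.sum_univ_three, a1, a2, a3, a4, zero_add, zero_add]
  rcases h0 : a 0 <;> rcases h1 : a 1 <;> rcases h2 : a 2 <;> simp

theorem min_two (a : Fin 3 → Bool) :
    min 2 (univ.filter fun j => a j = true).card = n1 a + 2 * n2 a := by
  unfold n1 n2
  rw [Finset.card_filter, Fin.sum_univ_three]
  rcases h0 : a 0 <;> rcases h1 : a 1 <;> rcases h2 : a 2 <;> simp

/-! ### the inequality for a connected set of faces -/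

variable {B W V : Type} [Fintype B] [Fintype W] [Fintype V] {M : PMap B W V}

theorem sum_white (F : Fin 3 → W → ℕ) :
    ∑ b, ∑ i, F i (M.e i b) = ∑ w, ∑ i, F i w := by
  rw [Finset.sum_comm, Finset.sum_comm (s := (univ : Finset W))]
  exact Finset.sum_congr rfl fun i _ => Equiv.sum_comp (M.e i) (F i)

/-- the faces of `K` at a black vertex -/
def ab (M : PMap B W V) [DecidableEq V] (K : Finset V) (b : B) (j : Fin 3) : Bool :=
  decide (M.c j b ∈ K)

/-- the faces of `K` at a white vertex -/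
def aw (M : PMap B W V) [DecidableEq V] (K : Finset V) (w : W) (j : Fin 3) : Bool :=
  decide (M.cw j w ∈ K)

theorem ab_iff [DecidableEq V] {K : Finset V} {b : B} {j : Fin 3} :
    ab M K b j = true ↔ M.c j b ∈ K := by
  unfold ab
  exact decide_eq_true_iff

theorem aw_iff [DecidableEq V] {K : Finset V} {w : W} {j : Fin 3} :
    aw M K w j = true ↔ M.cw j w ∈ K := by
  unfold aw
  exact decide_eq_true_iff

theorem cutc_eq (S : Set B) (T : Set W) [DecidablePred (· ∈ S)] [DecidablePred (· ∈ T)] :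
    cutc M S T = ∑ b, ∑ i, ((if b ∈ S ∧ M.e i b ∉ T then 1 else 0) +
      (if b ∉ S ∧ M.e i b ∈ T then 1 else 0)) := by
  classical
  unfold cutc
  rw [Finset.card_filter, Fintype.sum_prod_type, Finset.sum_comm]
  refine Finset.sum_congr rfl fun b _ => Finset.sum_congr rfl fun i _ => ?_
  by_cases h1 : b ∈ S <;> by_cases h2 : M.e i b ∈ T <;> simp [h1, h2]

open Classical in
theorem conn_case (hM : M.Sph) (h3 : C3 M) (h4 : C4 M) (b0 : B) (K : Finset V)
    (hne : K.Nonempty) (hK0 : ∀ j, M.c j b0 ∉ K)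
    (hcon : ∀ K1 ⊆ K, K1.Nonempty → K1 ≠ K →
      ∃ b, (∃ j, M.c j b ∈ K1) ∧ ∃ j, M.c j b ∈ K ∧ M.c j b ∉ K1) :
    2 * K.card ≤ ∑ b, min 2 (univ.filter fun j => M.c j b ∈ K).card := by
  -- the graph `H`
  let SB : Finset B := univ.filter fun b => ∃ j, M.c j b ∈ K
  let TW : Finset W := univ.filter fun w => ∃ j, M.cw j w ∈ K
  let EH : Finset (B × Fin 3) := univ.filter fun q => M.c (q.2 + 1) q.1 ∈ K ∨ M.c (q.2 + 2) q.1 ∈ K
  have memS : ∀ b, b ∈ SB ↔ ∃ j, M.c j b ∈ K := fun b => by simp [SB]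
  have memT : ∀ w, w ∈ TW ↔ ∃ j, M.cw j w ∈ K := fun w => by simp [TW]
  have memE : ∀ b i, (b, i) ∈ EH ↔ (M.c (i + 1) b ∈ K ∨ M.c (i + 2) b ∈ K) := fun b i => by
    simp [EH]
  have w1 : ∀ i b, M.cw (i + 1) (M.e i b) = M.c (i + 1) b := fun i b =>
    M.cw_e _ _ (fne1 i).symm b
  have w2 : ∀ i b, M.cw (i + 2) (M.e i b) = M.c (i + 2) b := fun i b =>
    M.cw_e _ _ (fne2 i).symm b
  have hES : ∀ b i, (b, i) ∈ EH → b ∈ SB := by
    intro b i h
    rcases (memE b i).1 h with h | h
    · exact (memS b).2 ⟨_, h⟩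
    · exact (memS b).2 ⟨_, h⟩
  have hET : ∀ b i, (b, i) ∈ EH → M.e i b ∈ TW := by
    intro b i h
    rcases (memE b i).1 h with h | h
    · exact (memT _).2 ⟨i + 1, by rw [w1]; exact h⟩
    · exact (memT _).2 ⟨i + 2, by rw [w2]; exact h⟩
  -- connectedness
  let R : B ⊕ W → B ⊕ W → Prop := fun x y =>
    ∃ q ∈ EH, x = Sum.inl q.1 ∧ y = Sum.inr (M.e q.2 q.1)
  obtain ⟨v0, hv0⟩ := hne
  obtain ⟨j0, b1, hb1⟩ := M.surj v0
  let Q : B ⊕ W → Prop := fun x => Relation.EqvGen R (Sum.inl b1) x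
  have hQE : ∀ b i, (b, i) ∈ EH → (Q (Sum.inl b) ↔ Q (Sum.inr (M.e i b))) := by
    intro b i h
    have h1 : R (Sum.inl b) (Sum.inr (M.e i b)) := ⟨(b, i), h, rfl, rfl⟩
    exact ⟨fun h2 => h2.trans _ _ _ (Relation.EqvGen.rel _ _ h1),
      fun h2 => h2.trans _ _ _ (Relation.EqvGen.symm _ _ (Relation.EqvGen.rel _ _ h1))⟩
  have around : ∀ j b b', M.c j b = M.c j b' → M.c j b ∈ K → (Q (Sum.inl b) ↔ Q (Sum.inl b')) := by
    intro j b b' h hK
    have h1 := M.exact j b b' h
    clear h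
    induction h1 with
    | rel x y hxy =>
      have hcy : M.c j y = M.c j x := M.step _ _ _ hxy
      have e1 : (x, j + 2) ∈ EH := (memE _ _).2 (Or.inl (by rw [f21]; exact hK))
      have e2 : (y, j + 1) ∈ EH := (memE _ _).2 (Or.inr (by rw [f12, hcy]; exact hK))
      rw [hQE _ _ e1, hQE _ _ e2, hxy]
    | refl x => rfl
    | symm x y hxy ih =>
      have hxy' : M.c j x = M.c j y := M.c_of_eqvGen hxy
      exact (ih (by rw [hxy']; exact hK)).symm
    | trans x y z hxy _ ih1 ih2 =>
      have hxy' : M.c j x = M.c j y := M.c_of_eqvGen hxy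
      exact (ih1 hK).trans (ih2 (by rw [← hxy']; exact hK))
  let K1 : Finset V := K.filter fun v => ∃ j b, M.c j b = v ∧ Q (Sum.inl b)
  have memK1 : ∀ v, v ∈ K1 ↔ v ∈ K ∧ ∃ j b, M.c j b = v ∧ Q (Sum.inl b) := fun v => by simp [K1]
  have hK1 : K1 = K := by
    by_contra hne
    have hsub : K1 ⊆ K := Finset.filter_subset _ _
    have hne1 : K1.Nonempty := ⟨v0, (memK1 v0).2 ⟨hv0, j0, b1, hb1, Relation.EqvGen.refl _⟩⟩
    obtain ⟨b, ⟨j, hj⟩, j', hj', hj''⟩ := hcon K1 hsub hne1 hne
    obtain ⟨hjK, k, b', hk, hQ⟩ := (memK1 _).1 hj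
    have hkj : k = j := M.cls _ _ _ _ hk
    subst hkj
    have hQb : Q (Sum.inl b) := (around k b' b hk (by rw [hk]; exact hjK)).1 hQ
    exact hj'' ((memK1 _).2 ⟨hj', j', b, rfl, hQb⟩)
  have hQB : ∀ j b, M.c j b ∈ K → Q (Sum.inl b) := by
    intro j b h
    have h1 : M.c j b ∈ K1 := by rw [hK1]; exact h
    obtain ⟨_, k, b', hk, hQ⟩ := (memK1 _).1 h1
    have hkj : k = j := M.cls _ _ _ _ hk
    subst hkj
    exact (around k b' b hk (by rw [hk]; exact h)).1 hQ
  have hQW : ∀ j w, M.cw j w ∈ K → Q (Sum.inr w) := by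
    intro j w h
    have h1 : M.c j ((M.e (j + 1)).symm w) ∈ K := h
    have h2 : ((M.e (j + 1)).symm w, j + 1) ∈ EH := (memE _ _).2 (Or.inr (by rw [f12]; exact h1))
    have h3 := (hQE _ _ h2).1 (hQB _ _ h1)
    rw [Equiv.apply_symm_apply] at h3
    exact h3
  have hQU : ∀ x ∈ SB.disjSum TW, Q x := by
    rintro (b | w) hx
    · rw [Finset.inl_mem_disjSum] at hx
      obtain ⟨j, hj⟩ := (memS b).1 hx
      exact hQB j b hj
    · rw [Finset.inr_mem_disjSum] at hx
      obtain ⟨j, hj⟩ := (memT w).1 hx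
      exact hQW j w hj
  have rank := H84.face_rank M hM.conn K (fun h => hK0 0 (h ▸ Finset.mem_univ _)) EH
    (SB.disjSum TW)
    (by
      rintro ⟨b, i⟩ hq
      exact ⟨Finset.inl_mem_disjSum.2 (hES b i hq), Finset.inr_mem_disjSum.2 (hET b i hq)⟩)
    (fun i b h => (memE b i).2 h)
    (fun x hx y hy => ((hQU x hx).symm).trans _ _ _ (hQU y hy))
  rw [Finset.card_disjSum] at rank
  -- counting
  have cS : SB.card = ∑ b, n0 (ab M K b) := by
    rw [Finset.card_filter]
    refine Finset.sum_congr rfl fun b _ => ?_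
    by_cases h : ∃ j, M.c j b ∈ K
    · rw [if_pos h, n0_one]
      obtain ⟨j, hj⟩ := h
      exact ⟨j, ab_iff.2 hj⟩
    · rw [if_neg h, n0_zero]
      rintro ⟨j, hj⟩
      exact h ⟨j, ab_iff.1 hj⟩
  have cT : TW.card = ∑ w, n0 (aw M K w) := by
    rw [Finset.card_filter]
    refine Finset.sum_congr rfl fun w _ => ?_
    by_cases h : ∃ j, M.cw j w ∈ K
    · rw [if_pos h, n0_one]
      obtain ⟨j, hj⟩ := h
      exact ⟨j, aw_iff.2 hj⟩
    · rw [if_neg h, n0_zero]
      rintro ⟨j, hj⟩
      exact h ⟨j, aw_iff.1 hj⟩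
  have cE : EH.card = ∑ b, ∑ i,
      (if ab M K b (i + 1) = true ∨ ab M K b (i + 2) = true then 1 else 0) := by
    rw [Finset.card_filter, Fintype.sum_prod_type]
    refine Finset.sum_congr rfl fun b _ => Finset.sum_congr rfl fun i _ => ?_
    simp only [ab_iff]
  have cE' : EH.card = ∑ w, ∑ i,
      (if aw M K w (i + 1) = true ∨ aw M K w (i + 2) = true then 1 else 0) := by
    rw [cE, ← sum_white (M := M) fun i w =>
      (if aw M K w (i + 1) = true ∨ aw M K w (i + 2) = true then 1 else 0)]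
    refine Finset.sum_congr rfl fun b _ => Finset.sum_congr rfl fun i _ => ?_
    simp only [ab_iff, aw_iff, w1, w2]
  simp only [edge_sum] at cE cE'
  have cm : ∑ b, min 2 (univ.filter fun j => M.c j b ∈ K).card =
      ∑ b, (n1 (ab M K b) + 2 * n2 (ab M K b)) := by
    refine Finset.sum_congr rfl fun b _ => ?_
    rw [← min_two]
    simp only [ab_iff]
  simp only [n0_eq] at cS cT
  rw [cm]
  -- edges outside `H`
  let x : ℕ := ∑ b, ∑ i, (if b ∈ SB ∧ M.e i b ∈ TW ∧ (b, i) ∉ EH then 1 else 0)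
  let z : ℕ := ∑ b, ∑ i, (if b ∈ SB ∧ M.e i b ∈ TW then 1 else 0)
  let p : ℕ := ∑ b, ∑ i, (if b ∈ SB ∧ M.e i b ∉ TW then 1 else 0)
  let q : ℕ := ∑ b, ∑ i, (if b ∉ SB ∧ M.e i b ∈ TW then 1 else 0)
  have hb1' : ∑ b, n1 (ab M K b) = x + p := by
    simp only [← off_sum]
    show _ = (∑ b, ∑ i, _) + (∑ b, ∑ i, _)
    rw [← Finset.sum_add_distrib]
    refine Finset.sum_congr rfl fun b _ => ?_
    rw [← Finset.sum_add_distrib]
    refine Finset.sum_congr rfl fun i _ => ?_
    simp only [ab_iff]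
    by_cases hS : b ∈ SB
    · have h0 : n0 (ab M K b) = 1 := by
        obtain ⟨j, hj⟩ := (memS b).1 hS
        exact n0_one ⟨j, ab_iff.2 hj⟩
      rw [h0]
      by_cases hE : (b, i) ∈ EH
      · have hT := hET b i hE
        rw [if_pos ((memE b i).1 hE), if_neg (fun h => h.2.2 hE), if_neg (fun h => h.2 hT)]
      · rw [if_neg (fun h => hE ((memE b i).2 h))]
        by_cases hT : M.e i b ∈ TW
        · rw [if_pos ⟨hS, hT, hE⟩, if_neg (fun h => h.2 hT)]
        · rw [if_neg (fun h => hT h.2.1), if_pos ⟨hS, hT⟩]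
    · have h0 : n0 (ab M K b) = 0 := by
        apply n0_zero
        rintro ⟨j, hj⟩
        exact hS ((memS b).2 ⟨j, ab_iff.1 hj⟩)
      rw [h0, zero_mul, if_neg (fun h => hS h.1), if_neg (fun h => hS h.1), add_zero]
  have hw1' : ∑ w, n1 (aw M K w) = x + q := by
    simp only [← off_sum]
    rw [← sum_white (M := M) fun i w => n0 (aw M K w) *
      (if aw M K w (i + 1) = true ∨ aw M K w (i + 2) = true then 0 else 1)]
    show _ = (∑ b, ∑ i, _) + (∑ b, ∑ i, _)
    rw [← Finset.sum_add_distrib]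
    refine Finset.sum_congr rfl fun b _ => ?_
    rw [← Finset.sum_add_distrib]
    refine Finset.sum_congr rfl fun i _ => ?_
    simp only [aw_iff, w1, w2]
    by_cases hT : M.e i b ∈ TW
    · have h0 : n0 (aw M K (M.e i b)) = 1 := by
        obtain ⟨j, hj⟩ := (memT _).1 hT
        exact n0_one ⟨j, aw_iff.2 hj⟩
      rw [h0]
      by_cases hE : (b, i) ∈ EH
      · have hS := hES b i hE
        rw [if_pos ((memE b i).1 hE), if_neg (fun h => h.2.2 hE), if_neg (fun h => h.1 hS)]
      · rw [if_neg (fun h => hE ((memE b i).2 h))]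
        by_cases hS : b ∈ SB
        · rw [if_pos ⟨hS, hT, hE⟩, if_neg (fun h => h.1 hS)]
        · rw [if_neg (fun h => hS h.1), if_pos ⟨hS, hT⟩]
    · have h0 : n0 (aw M K (M.e i b)) = 0 := by
        apply n0_zero
        rintro ⟨j, hj⟩
        exact hT ((memT _).2 ⟨j, aw_iff.1 hj⟩)
      rw [h0, zero_mul, if_neg (fun h => hT h.2.1), if_neg (fun h => hT h.2), add_zero]
  have hS3 : 3 * SB.card = z + p := by
    have e : SB.card = ∑ b, (if b ∈ SB then 1 else 0) := by simp
    rw [e, Finset.mul_sum]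
    show _ = (∑ b, ∑ i, _) + (∑ b, ∑ i, _)
    rw [← Finset.sum_add_distrib]
    refine Finset.sum_congr rfl fun b _ => ?_
    rw [← Finset.sum_add_distrib]
    have e2 : ∀ i : Fin 3, (if b ∈ SB ∧ M.e i b ∈ TW then 1 else 0) +
        (if b ∈ SB ∧ M.e i b ∉ TW then 1 else 0) = (if b ∈ SB then 1 else 0 : ℕ) := by
      intro i
      by_cases h1 : b ∈ SB <;> by_cases h2 : M.e i b ∈ TW <;> simp [h1, h2]
    simp only [e2, Finset.sum_const, Finset.card_univ, Fintype.card_fin, smul_eq_mul]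
  have hT3 : 3 * TW.card = z + q := by
    have e : 3 * TW.card = ∑ w, ∑ _i : Fin 3, (if w ∈ TW then 1 else 0) := by
      simp only [Finset.sum_const, Finset.card_univ, Fintype.card_fin, smul_eq_mul,
        ← Finset.mul_sum]
      simp
    rw [e, ← sum_white (M := M) fun _ w => (if w ∈ TW then 1 else 0)]
    show _ = (∑ b, ∑ i, _) + (∑ b, ∑ i, _)
    rw [← Finset.sum_add_distrib]
    refine Finset.sum_congr rfl fun b _ => ?_
    rw [← Finset.sum_add_distrib]
    refine Finset.sum_congr rfl fun i _ => ?_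
    by_cases h1 : b ∈ SB <;> by_cases h2 : M.e i b ∈ TW <;> simp [h1, h2]
  have hcut : cutc M (SB : Set B) (TW : Set W) = p + q := by
    rw [cutc_eq]
    show _ = (∑ b, ∑ i, _) + (∑ b, ∑ i, _)
    rw [← Finset.sum_add_distrib]
    refine Finset.sum_congr rfl fun b _ => ?_
    rw [← Finset.sum_add_distrib]
    refine Finset.sum_congr rfl fun i _ => ?_
    simp only [Finset.mem_coe]
  have hb0 : b0 ∉ SB := fun h => by
    obtain ⟨j, hj⟩ := (memS b0).1 h
    exact hK0 j hj
  have hSne : b1 ∈ SB := (memS b1).2 ⟨j0, by rw [hb1]; exact hv0⟩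
  have h3' : 3 ≤ p + q := by
    rw [← hcut]
    exact h3 _ _ (Or.inl ⟨b1, hSne⟩) (Or.inl ⟨b0, hb0⟩)
  have h4' : p + q = 3 → p = 0 := by
    intro h
    rcases h4 (SB : Set B) (TW : Set W) (by rw [hcut, h]) with h5 | h5
    · exfalso
      have h6 : M.e (j0 + 1) b1 ∈ TW := (memT _).2 ⟨j0, by rw [M.cw_e1, hb1]; exact hv0⟩
      rw [Set.ncard_coe_finset, Set.ncard_coe_finset] at h5
      have h7 : 0 < SB.card := Finset.card_pos.2 ⟨_, hSne⟩
      have h8 : 0 < TW.card := Finset.card_pos.2 ⟨_, h6⟩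
      omega
    · have h6 : 0 < ((SB : Set B)ᶜ).ncard := (Set.ncard_pos (Set.toFinite _)).2 ⟨b0, hb0⟩
      have h7 : ((TW : Set W)ᶜ).ncard = 0 := by omega
      rw [Set.ncard_eq_zero (Set.toFinite _)] at h7
      refine Finset.sum_eq_zero fun b _ => Finset.sum_eq_zero fun i _ => ?_
      rw [if_neg]
      rintro ⟨_, hh⟩
      have h8 : M.e i b ∈ ((TW : Set W)ᶜ) := hh
      rw [h7] at h8
      exact h8
  simp only [Finset.sum_add_distrib, ← Finset.mul_sum] at cS cT cE cE' ⊢
  omega

open Classical in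
/-- the Hall condition for all sets of faces away from the root -/
theorem hall_all (hM : M.Sph) (h3 : C3 M) (h4 : C4 M) (b0 : B) :
    ∀ (n : ℕ) (K : Finset V), K.card ≤ n → (∀ j, M.c j b0 ∉ K) →
      2 * K.card ≤ ∑ b, min 2 (univ.filter fun j => M.c j b ∈ K).card := by
  intro n
  induction n with
  | zero =>
    intro K hK _
    have : K.card = 0 := by omega
    rw [this]
    exact Nat.zero_le _
  | succ n ih =>
    intro K hK hK0
    rcases K.eq_empty_or_nonempty with rfl | hne
    · simp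
    by_cases hcon : ∀ K1 ⊆ K, K1.Nonempty → K1 ≠ K →
      ∃ b, (∃ j, M.c j b ∈ K1) ∧ ∃ j, M.c j b ∈ K ∧ M.c j b ∉ K1
    · exact conn_case hM h3 h4 b0 K hne hK0 hcon
    · push Not at hcon
      obtain ⟨K1, hsub, hne1, hneK, hsep⟩ := hcon
      have c1 : (K \ K1).card + K1.card = K.card := Finset.card_sdiff_add_card_eq_card hsub
      have c2 : 0 < K1.card := Finset.card_pos.2 hne1
      have c3 : K1.card < K.card := Finset.card_lt_card (Finset.ssubset_iff_subset_ne.2 ⟨hsub, hneK⟩)
      have i1 := ih K1 (by omega) (fun j h => hK0 j (hsub h))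
      have i2 := ih (K \ K1) (by omega) (fun j h => hK0 j (Finset.mem_sdiff.1 h).1)
      have i3 : ∑ b, min 2 (univ.filter fun j => M.c j b ∈ K).card =
          ∑ b, min 2 (univ.filter fun j => M.c j b ∈ K1).card +
          ∑ b, min 2 (univ.filter fun j => M.c j b ∈ K \ K1).card := by
        rw [← Finset.sum_add_distrib]
        refine Finset.sum_congr rfl fun b _ => ?_
        by_cases hb : ∃ j, M.c j b ∈ K1
        · have e1 : (univ.filter fun j => M.c j b ∈ K \ K1) = ∅ := by
            apply Finset.filter_eq_empty_iff.2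
            intro j _ hj
            exact (Finset.mem_sdiff.1 hj).2 (hsep b hb j (Finset.mem_sdiff.1 hj).1)
          have e2 : (univ.filter fun j => M.c j b ∈ K) = univ.filter fun j => M.c j b ∈ K1 := by
            apply Finset.filter_congr
            intro j _
            exact ⟨fun h => hsep b hb j h, fun h => hsub h⟩
          rw [e1, e2]
          simp
        · have e1 : (univ.filter fun j => M.c j b ∈ K1) = ∅ := by
            apply Finset.filter_eq_empty_iff.2
            intro j _ hj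
            exact hb ⟨j, hj⟩
          have e2 : (univ.filter fun j => M.c j b ∈ K) = univ.filter fun j => M.c j b ∈ K \ K1 := by
            apply Finset.filter_congr
            intro j _
            exact ⟨fun h => Finset.mem_sdiff.2 ⟨h, fun h' => hb ⟨j, h'⟩⟩,
              fun h => (Finset.mem_sdiff.1 h).1⟩
          rw [e1, e2]
          simp
      omega

open Classical in
theorem card_off (hM : M.Sph) (b0 : B) :
    Fintype.card (BOff b0) = Fintype.card (VOff M b0) := by
  have e1 : Fintype.card (BOff b0) + 1 = Fintype.card B := by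
    have h1 : Fintype.card (BOff b0) = Fintype.card B - 1 := by
      rw [Fintype.card_subtype_compl, Fintype.card_subtype_eq]
    have h2 : 0 < Fintype.card B := Fintype.card_pos_iff.2 ⟨b0⟩
    omega
  have e2 : Fintype.card (VOff M b0) + 3 = Fintype.card V := by
    have h1 : (univ.filter fun v : V => ∀ j, M.c j b0 ≠ v)ᶜ = univ.image fun j => M.c j b0 := by
      ext v
      simp
    have h2 : (univ.image fun j => M.c j b0).card = 3 := by
      rw [Finset.card_image_of_injective _ (fun i j h => M.cls _ _ _ _ h)]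
      simp
    have h3 := Finset.card_compl (univ.filter fun v : V => ∀ j, M.c j b0 ≠ v)
    have h4 := Finset.card_le_univ (univ.filter fun v : V => ∀ j, M.c j b0 ≠ v)
    rw [h1, h2] at h3
    rw [Fintype.card_subtype]
    omega
  have := hM.card
  omega

/-- **row S3** -/
theorem pairStmt : PairStmt := by
  classical
  intro B W V _ _ _ M hM h3 h4 b0
  obtain ⟨f, g, e, e', hfg, hf, hg⟩ :=
    H484.two_matchings_option (Fo M b0) (card_off hM b0) (by
      intro K
      have h1 := hall_all hM h3 h4 b0 _ (K.map (Function.Embedding.subtype _)) le_rfl (by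
        intro j h
        obtain ⟨v, _, hv⟩ := Finset.mem_map.1 h
        exact v.2 j hv.symm)
      rw [Finset.card_map] at h1
      refine h1.trans (le_of_eq ?_)
      have h2 : ∀ (b : B) (j : Fin 3), M.c j b ∈ K.map (Function.Embedding.subtype _) ↔
          ∃ h : ∀ i, M.c i b0 ≠ M.c j b, (⟨M.c j b, h⟩ : VOff M b0) ∈ K := by
        intro b j
        constructor
        · intro h
          obtain ⟨v, hv, hv'⟩ := Finset.mem_map.1 h
          have hv'' : v.1 = M.c j b := hv'
          refine ⟨fun i => ?_, ?_⟩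
          · rw [← hv'']
            exact v.2 i
          · have : v = (⟨M.c j b, by intro i; rw [← hv'']; exact v.2 i⟩ : VOff M b0) :=
              Subtype.ext hv''
            rw [← this]
            exact hv
        · rintro ⟨h, hK⟩
          exact Finset.mem_map.2 ⟨_, hK, rfl⟩
      have h3 : ∀ (b : BOff b0) (j : Fin 3), (∃ v ∈ K, Fo M b0 b j = some v) ↔
          M.c j b.1 ∈ K.map (Function.Embedding.subtype _) := by
        intro b j
        rw [h2]
        unfold Fo
        constructor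
        · rintro ⟨v, hv, hv'⟩
          split_ifs at hv' with hj
          refine ⟨hj, ?_⟩
          rw [Option.some.inj hv']
          exact hv
        · rintro ⟨h, hK⟩
          exact ⟨_, hK, by rw [dif_pos h]⟩
      simp only [h3]
      have h4 : (univ.filter fun j => M.c j b0 ∈ K.map (Function.Embedding.subtype _)).card = 0 := by
        rw [Finset.card_eq_zero, Finset.filter_eq_empty_iff]
        intro j _ h
        obtain ⟨h', _⟩ := (h2 b0 j).1 h
        exact h' j rfl
      rw [← Finset.add_sum_erase univ _ (Finset.mem_univ b0), h4, Nat.min_zero, zero_add]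
      exact Finset.sum_subtype _ (fun x => by simp) _)
  exact ⟨f, g, ⟨e, hf⟩, ⟨e', hg⟩, hfg⟩

end Vale.Agent.P039.H259
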